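import Mathlib

/-!
# P226: the mean norm of the standard Gaussian vector in dimensions three and four

The standard Gaussian measure of a finite-dimensional inner product space has the density
`Z⁻¹ exp (-‖x‖² / 2)` (proved through characteristic functions), and the integral of the norm is
then a quotient of two one-dimensional integrals of Gamma type.
-/

namespace Vale.Agent.Lib.P226.H77

open MeasureTheory ProbabilityTheory Real Set

section General

variable {V : Type*} [NormedAddCommGroup V] [InnerProductSpace ℝ V] [FiniteDimensional ℝ V]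
  [MeasurableSpace V] [BorelSpace V]

theorem gaussZ_eq :
    (∫ v : V, rexp (-(1 / 2 : ℝ) * ‖v‖ ^ 2)) = (π / (1 / 2)) ^ (Module.finrank ℝ V / 2 : ℝ) :=
  GaussianFourier.integral_rexp_neg_mul_sq_norm (by norm_num)

theorem gaussZ_pos : 0 < ∫ v : V, rexp (-(1 / 2 : ℝ) * ‖v‖ ^ 2) := by
  rw [gaussZ_eq]
  positivity

theorem integrable_gauss : Integrable (fun v : V => rexp (-(1 / 2 : ℝ) * ‖v‖ ^ 2)) :=
  Integrable.of_integral_ne_zero gaussZ_pos.ne'

/-- The standard Gaussian measure has density `Z⁻¹ exp (-‖x‖² / 2)` with respect to the volume,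
where `Z` is the integral of `exp (-‖x‖² / 2)`. -/
theorem stdGaussian_eq_withDensity :
    stdGaussian V = (volume : Measure V).withDensity
      (fun x => ENNReal.ofReal ((∫ v : V, rexp (-(1 / 2 : ℝ) * ‖v‖ ^ 2))⁻¹ *
        rexp (-(1 / 2 : ℝ) * ‖x‖ ^ 2))) := by
  set Z : ℝ := ∫ v : V, rexp (-(1 / 2 : ℝ) * ‖v‖ ^ 2) with hZ
  have hZpos : 0 < Z := gaussZ_pos
  have hint : Integrable (fun x : V => Z⁻¹ * rexp (-(1 / 2 : ℝ) * ‖x‖ ^ 2)) :=
    integrable_gauss.const_mul _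
  have : IsFiniteMeasure ((volume : Measure V).withDensity
      (fun x => ENNReal.ofReal (Z⁻¹ * rexp (-(1 / 2 : ℝ) * ‖x‖ ^ 2)))) :=
    isFiniteMeasure_withDensity_ofReal hint.2
  refine Measure.ext_of_charFun ?_
  ext t
  rw [charFun_stdGaussian, charFun_apply]
  rw [integral_withDensity_eq_integral_toReal_smul (by fun_prop) (by simp)]
  have h1 : ∀ x : V, (ENNReal.ofReal (Z⁻¹ * rexp (-(1 / 2 : ℝ) * ‖x‖ ^ 2))).toReal •
      Complex.exp ((inner ℝ x t : ℝ) * Complex.I)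
      = (Z⁻¹ : ℂ) * Complex.exp (-(1 / 2 : ℂ) * (‖x‖ : ℂ) ^ 2 +
          Complex.I * ((inner ℝ t x : ℝ) : ℂ)) := by
    intro x
    rw [ENNReal.toReal_ofReal (by positivity), Complex.real_smul, Complex.exp_add,
      real_inner_comm]
    push_cast
    ring_nf
  simp_rw [h1]
  rw [integral_const_mul,
    GaussianFourier.integral_cexp_neg_mul_sq_norm_add (by norm_num : 0 < (1 / 2 : ℂ).re)
      Complex.I t]
  have hZc : (Z : ℂ) = (π / (1 / 2 : ℂ)) ^ (Module.finrank ℝ V / 2 : ℂ) := by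
    rw [hZ, ← GaussianFourier.integral_cexp_neg_mul_sq_norm
      (by norm_num : 0 < (1 / 2 : ℂ).re) (V := V), ← integral_complex_ofReal]
    congr 1
    ext v
    push_cast
    rfl
  rw [← hZc, ← mul_assoc, inv_mul_cancel₀ (by exact_mod_cast hZpos.ne'), one_mul]
  congr 1
  rw [Complex.I_sq]
  ring

/-- The mean norm of the standard Gaussian as a quotient of two radial integrals. -/
theorem integral_norm_stdGaussian_eq [Nontrivial V] :
    ∫ q, ‖q‖ ∂(stdGaussian V) =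
      (∫ y in Ioi (0 : ℝ), y ^ (Module.finrank ℝ V - 1) • (rexp (-(1 / 2 : ℝ) * y ^ 2) * y)) /
        (∫ y in Ioi (0 : ℝ), y ^ (Module.finrank ℝ V - 1) • rexp (-(1 / 2 : ℝ) * y ^ 2)) := by
  rw [stdGaussian_eq_withDensity,
    integral_withDensity_eq_integral_toReal_smul (by fun_prop) (by simp)]
  set Z : ℝ := ∫ v : V, rexp (-(1 / 2 : ℝ) * ‖v‖ ^ 2) with hZ
  have hZpos : 0 < Z := gaussZ_pos
  have h1 : ∀ q : V, (ENNReal.ofReal (Z⁻¹ * rexp (-(1 / 2 : ℝ) * ‖q‖ ^ 2))).toReal • ‖q‖ =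
      Z⁻¹ * (fun r : ℝ => rexp (-(1 / 2 : ℝ) * r ^ 2) * r) ‖q‖ := by
    intro q
    rw [ENNReal.toReal_ofReal (by positivity), smul_eq_mul, mul_assoc]
  simp_rw [h1]
  rw [integral_const_mul,
    integral_fun_norm_addHaar (volume : Measure V) (fun r : ℝ => rexp (-(1 / 2 : ℝ) * r ^ 2) * r)]
  have hZ' : Z = Module.finrank ℝ V • (volume : Measure V).real (Metric.ball 0 1) •
      ∫ y in Ioi (0 : ℝ), y ^ (Module.finrank ℝ V - 1) • rexp (-(1 / 2 : ℝ) * y ^ 2) := by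
    rw [hZ]
    exact integral_fun_norm_addHaar (volume : Measure V) (fun r : ℝ => rexp (-(1 / 2 : ℝ) * r ^ 2))
  set N : ℝ := ∫ y in Ioi (0 : ℝ), y ^ (Module.finrank ℝ V - 1) • (rexp (-(1 / 2 : ℝ) * y ^ 2) * y)
  set D : ℝ := ∫ y in Ioi (0 : ℝ), y ^ (Module.finrank ℝ V - 1) • rexp (-(1 / 2 : ℝ) * y ^ 2)
  set B : ℝ := (volume : Measure V).real (Metric.ball 0 1)
  have hd : (0 : ℝ) < (Module.finrank ℝ V : ℝ) := by
    exact_mod_cast Module.finrank_pos
  have hZ'' : Z = (Module.finrank ℝ V : ℝ) * (B * D) := by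
    rw [hZ']
    simp [nsmul_eq_mul]
  have hBD : B * D ≠ 0 := by
    intro h0
    rw [h0, mul_zero] at hZ''
    exact hZpos.ne' hZ''
  have hB : B ≠ 0 := left_ne_zero_of_mul hBD
  have hD : D ≠ 0 := right_ne_zero_of_mul hBD
  rw [hZ'']
  simp only [nsmul_eq_mul, smul_eq_mul]
  field_simp

end General

/-- The radial integrals. -/
theorem radial_two : ∫ y in Ioi (0 : ℝ), y ^ (2 : ℝ) * rexp (-(1 / 2 : ℝ) * y ^ (2 : ℝ)) =
    Real.sqrt (2 * π) / 2 := by
  rw [integral_rpow_mul_exp_neg_mul_rpow (by norm_num) (by norm_num) (by norm_num)]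
  have hG : Real.Gamma ((2 + 1) / 2) = Real.sqrt π / 2 := by
    have h := Real.Gamma_add_one (s := (1 / 2 : ℝ)) (by norm_num)
    rw [Real.Gamma_one_half_eq] at h
    rw [show ((2 : ℝ) + 1) / 2 = 1 / 2 + 1 by norm_num, h]
    ring
  have hp : (1 / 2 : ℝ) ^ (-((2 : ℝ) + 1) / 2) = 2 * Real.sqrt 2 := by
    rw [show (1 / 2 : ℝ) = 2⁻¹ by norm_num, Real.inv_rpow (by norm_num),
      ← Real.rpow_neg (by norm_num),
      show (-(-((2 : ℝ) + 1) / 2)) = 1 + 1 / 2 by norm_num,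
      Real.rpow_add (by norm_num), Real.rpow_one, ← Real.sqrt_eq_rpow]
  rw [hG, hp, Real.sqrt_mul (by norm_num)]
  ring

theorem radial_three : ∫ y in Ioi (0 : ℝ), y ^ (3 : ℝ) * rexp (-(1 / 2 : ℝ) * y ^ (2 : ℝ)) = 2 := by
  rw [integral_rpow_mul_exp_neg_mul_rpow (by norm_num) (by norm_num) (by norm_num)]
  have hG : Real.Gamma ((3 + 1) / 2) = 1 := by
    rw [show ((3 : ℝ) + 1) / 2 = 2 by norm_num]
    exact Real.Gamma_two
  have hp : (1 / 2 : ℝ) ^ (-((3 : ℝ) + 1) / 2) = 4 := by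
    rw [show (1 / 2 : ℝ) = 2⁻¹ by norm_num, Real.inv_rpow (by norm_num),
      ← Real.rpow_neg (by norm_num),
      show (-(-((3 : ℝ) + 1) / 2)) = ((2 : ℕ) : ℝ) by norm_num, Real.rpow_natCast]
    norm_num
  rw [hG, hp]
  norm_num

theorem radial_four : ∫ y in Ioi (0 : ℝ), y ^ (4 : ℝ) * rexp (-(1 / 2 : ℝ) * y ^ (2 : ℝ)) =
    3 * Real.sqrt (2 * π) / 2 := by
  rw [integral_rpow_mul_exp_neg_mul_rpow (by norm_num) (by norm_num) (by norm_num)]
  have hG : Real.Gamma ((4 + 1) / 2) = 3 * Real.sqrt π / 4 := by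
    have h := Real.Gamma_add_one (s := (1 / 2 : ℝ)) (by norm_num)
    rw [Real.Gamma_one_half_eq] at h
    have h2 := Real.Gamma_add_one (s := (1 / 2 + 1 : ℝ)) (by norm_num)
    rw [h] at h2
    rw [show ((4 : ℝ) + 1) / 2 = 1 / 2 + 1 + 1 by norm_num, h2]
    ring
  have hp : (1 / 2 : ℝ) ^ (-((4 : ℝ) + 1) / 2) = 4 * Real.sqrt 2 := by
    rw [show (1 / 2 : ℝ) = 2⁻¹ by norm_num, Real.inv_rpow (by norm_num),
      ← Real.rpow_neg (by norm_num),
      show (-(-((4 : ℝ) + 1) / 2)) = ((2 : ℕ) : ℝ) + 1 / 2 by norm_num,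
      Real.rpow_add (by norm_num), Real.rpow_natCast, ← Real.sqrt_eq_rpow]
    norm_num
  rw [hG, hp, Real.sqrt_mul (by norm_num)]
  ring

/-- Conversion of the natural-number powers of the radial formula to real powers. -/
theorem radial_conv (n : ℕ) (k : ℕ) :
    ∫ y in Ioi (0 : ℝ), y ^ n • (rexp (-(1 / 2 : ℝ) * y ^ 2) * y ^ k) =
      ∫ y in Ioi (0 : ℝ), y ^ ((n + k : ℕ) : ℝ) * rexp (-(1 / 2 : ℝ) * y ^ (2 : ℝ)) := by
  refine setIntegral_congr_fun measurableSet_Ioi (fun y _ => ?_)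
  simp only [smul_eq_mul]
  rw [Real.rpow_natCast, Real.rpow_two, pow_add]
  ring

theorem integral_norm_stdGaussian_three :
    ∫ y, ‖y‖ ∂(stdGaussian (EuclideanSpace ℝ (Fin 3))) = 2 * Real.sqrt (2 / Real.pi) := by
  rw [integral_norm_stdGaussian_eq]
  have hdim : Module.finrank ℝ (EuclideanSpace ℝ (Fin 3)) - 1 = 2 := by simp
  rw [hdim]
  have hN := radial_conv 2 1
  have hD := radial_conv 2 0
  simp only [pow_one, pow_zero, mul_one] at hN hD
  rw [hN, hD]
  norm_num only [Nat.cast_ofNat, Nat.reduceAdd]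
  rw [radial_three, radial_two]
  have hpi : (0 : ℝ) < π := Real.pi_pos
  have h2 : Real.sqrt (2 * π) * Real.sqrt (2 / π) = 2 := by
    rw [← Real.sqrt_mul (by positivity), show 2 * π * (2 / π) = 2 ^ 2 by field_simp,
      Real.sqrt_sq (by norm_num)]
  have hpos : 0 < Real.sqrt (2 * π) := Real.sqrt_pos.2 (by positivity)
  field_simp
  nlinarith [h2]

theorem integral_norm_stdGaussian_four :
    ∫ q, ‖q‖ ∂(stdGaussian (EuclideanSpace ℝ (Fin 4))) = 3 * Real.sqrt (2 * Real.pi) / 4 := by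
  rw [integral_norm_stdGaussian_eq]
  have hdim : Module.finrank ℝ (EuclideanSpace ℝ (Fin 4)) - 1 = 3 := by simp
  rw [hdim]
  have hN := radial_conv 3 1
  have hD := radial_conv 3 0
  simp only [pow_one, pow_zero, mul_one] at hN hD
  rw [hN, hD]
  norm_num only [Nat.cast_ofNat, Nat.reduceAdd]
  rw [radial_four, radial_three]
  ring

end Vale.Agent.Lib.P226.H77
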